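import Vale.Agent.P183.Bounded

/- Closure of representable lattices under extensions; congruence normal lattices. -/

namespace Vale.Agent.Results.P183.Extensions

open Vale.Agent.P183

theorem result :
    (∀ (Λ L : Type) [PartialOrder Λ] [PartialOrder L] [OrderBot L],
      Representable Λ → Representable L → ∀ (Low : Set Λ), IsUpperSet Low →
        ∀ g : Low → L, Monotone g → Representable (Ext Λ L Low g)) ∧
    (∀ (Λ : Type) [PartialOrder Λ], Representable Λ → ∀ C : Set Λ, C.OrdConnected →
      Representable (Doubling C)) ∧
    (∀ (L : Type) [inst : LE L], CongruenceNormal L inst → Representable L) ∧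
    (∀ (L : Type) [Lattice L] [Finite L] [Nonempty L],
      LowerBounded L ∨ UpperBounded L → Representable L) :=
  ⟨fun _ _ _ _ _ hΛ hL Low hLow g hg => representable_ext hΛ hL Low hLow g hg,
    fun _ _ hΛ C hC => representable_doubling hΛ C hC,
    fun _ _ h => representable_of_congruenceNormal h,
    fun _ _ _ _ h => h.elim
      (fun h => representable_of_congruenceNormal (congruenceNormal_of_lowerBounded h))
      (fun h => representable_of_congruenceNormal (congruenceNormal_of_upperBounded h))⟩

end Vale.Agent.Results.P183.Extensions
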